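import Mathlib

namespace Vale.Agent.Lib.P065

open scoped Classical

/-- The cross product `(q - p) × (r - p)`: positive iff `r` lies strictly to the left of the
directed line from `p` to `q`, negative iff strictly to the right, zero iff collinear. -/
def cr (p q r : ℝ × ℝ) : ℝ := (q.1 - p.1) * (r.2 - p.2) - (q.2 - p.2) * (r.1 - p.1)

/-- No three points of `P` are collinear. -/
def GenPos (P : Finset (ℝ × ℝ)) : Prop :=
  ∀ p ∈ P, ∀ q ∈ P, ∀ r ∈ P, p ≠ q → p ≠ r → q ≠ r → cr p q r ≠ 0

/-- The line through the distinct points `p`, `q` is a halving line of `P`: each of its two open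
half-planes contains exactly `(|P| - 2) / 2` points of `P`. -/
def IsHalving (P : Finset (ℝ × ℝ)) (p q : ℝ × ℝ) : Prop :=
  p ≠ q ∧ 2 * (P.filter (fun r => 0 < cr p q r)).card + 2 = P.card ∧
    2 * (P.filter (fun r => cr p q r < 0)).card + 2 = P.card

/-- The set of unordered pairs of points of `P` that span a halving line of `P`. -/
noncomputable def halvingLines (P : Finset (ℝ × ℝ)) : Finset (Sym2 (ℝ × ℝ)) :=
  (P.offDiag.filter (fun pq => IsHalving P pq.1 pq.2)).image (fun pq => s(pq.1, pq.2))

end Vale.Agent.Lib.P065
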