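import Mathlib

namespace Vale.Agent.Lib.P065

open Finset

/-- Running sum of `σ` over the elements of `Q` whose key is smaller than the key of `q`. -/
noncomputable def psum {α : Type*} (Q : Finset α) (f : α → ℝ) (σ : α → ℤ) (q : α) : ℤ :=
  ∑ r ∈ Q.filter (fun r => f r < f q), σ r

theorem walk_aux {α : Type*} [DecidableEq α] (f : α → ℝ) (σ : α → ℤ) (c : ℤ) (Q : Finset α)
    (hf : Set.InjOn f Q) (hσ : ∀ q ∈ Q, σ q = 1 ∨ σ q = -1) :
    ((∑ r ∈ Q, σ r ≤ c) → (Q.filter (fun q => σ q = 1 ∧ psum Q f σ q = c)).card ≤
        (Q.filter (fun q => σ q = -1 ∧ psum Q f σ q = c + 1)).card) ∧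
    (Q.filter (fun q => σ q = 1 ∧ psum Q f σ q = c)).card ≤
        (Q.filter (fun q => σ q = -1 ∧ psum Q f σ q = c + 1)).card + 1 := by
  induction Q using Finset.induction_on_max_value f with
  | empty => simp
  | insert a s ha hmax ih =>
    have hlt : ∀ x ∈ s, f x < f a := by
      intro x hx
      refine lt_of_le_of_ne (hmax x hx) ?_
      intro hxa
      have : x = a := hf (by simp [hx]) (by simp) hxa
      exact ha (this ▸ hx)
    have hps : ∀ q ∈ s, psum (insert a s) f σ q = psum s f σ q := by
      intro q hq
      unfold psum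
      rw [Finset.filter_insert, if_neg (not_lt.mpr (hlt q hq).le)]
    have hpa : psum (insert a s) f σ a = ∑ r ∈ s, σ r := by
      unfold psum
      rw [Finset.filter_insert, if_neg (lt_irrefl _), Finset.filter_true_of_mem hlt]
    have ih' := ih (fun x hx y hy h => hf (by simp [hx]) (by simp [hy]) h)
      (fun q hq => hσ q (by simp [hq]))
    obtain ⟨ih1, ih2⟩ := ih'
    have hU : (s.filter (fun q => σ q = 1 ∧ psum (insert a s) f σ q = c)) =
        (s.filter (fun q => σ q = 1 ∧ psum s f σ q = c)) :=
      Finset.filter_congr (fun q hq => by rw [hps q hq])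
    have hD : (s.filter (fun q => σ q = -1 ∧ psum (insert a s) f σ q = c + 1)) =
        (s.filter (fun q => σ q = -1 ∧ psum s f σ q = c + 1)) :=
      Finset.filter_congr (fun q hq => by rw [hps q hq])
    have haU : a ∉ s.filter (fun q => σ q = 1 ∧ psum s f σ q = c) := by simp [ha]
    have haD : a ∉ s.filter (fun q => σ q = -1 ∧ psum s f σ q = c + 1) := by simp [ha]
    rw [Finset.sum_insert ha, Finset.filter_insert, Finset.filter_insert, hU, hD, hpa]
    rcases hσ a (by simp) with h1 | h1
    · rw [h1]
      have hne : ¬ ((1 : ℤ) = -1 ∧ ∑ r ∈ s, σ r = c + 1) := by omega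
      rw [if_neg hne]
      by_cases hT : ∑ r ∈ s, σ r = c
      · rw [if_pos ⟨rfl, hT⟩, Finset.card_insert_of_notMem haU]
        have := ih1 hT.le
        constructor
        · intro h; omega
        · omega
      · rw [if_neg (fun h => hT h.2)]
        constructor
        · intro h; exact ih1 (by omega)
        · exact ih2
    · rw [h1]
      have hne : ¬ ((-1 : ℤ) = 1 ∧ ∑ r ∈ s, σ r = c) := by omega
      rw [if_neg hne]
      by_cases hT : ∑ r ∈ s, σ r = c + 1
      · rw [if_pos ⟨rfl, hT⟩, Finset.card_insert_of_notMem haD]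
        constructor
        · intro h; omega
        · omega
      · rw [if_neg (fun h => hT h.2)]
        constructor
        · intro h; exact ih1 (by omega)
        · exact ih2

end Vale.Agent.Lib.P065
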