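import Mathlib
import Vale.Agent.Lib.P065.Defs
import Vale.Agent.Lib.P065.Walk

namespace Vale.Agent.Lib.P065

open scoped Classical
open Finset

/-- Signed distance (up to scaling) of `q` from the line through `b` with normal vector `v`. -/
def xc (b v q : ℝ × ℝ) : ℝ := v.1 * (q.1 - b.1) + v.2 * (q.2 - b.2)

/-- Coordinate of `q` along the line through `b` with normal vector `v`. -/
def yc (b v q : ℝ × ℝ) : ℝ := -v.2 * (q.1 - b.1) + v.1 * (q.2 - b.2)

/-- The slope key of `q` as seen from `b`. -/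
noncomputable def key (b v q : ℝ × ℝ) : ℝ := yc b v q / xc b v q

/-- The side of `q`. -/
noncomputable def sg (b v q : ℝ × ℝ) : ℤ := if 0 < xc b v q then 1 else -1

theorem xy_cr (b v q r : ℝ × ℝ) :
    xc b v q * yc b v r - xc b v r * yc b v q = (v.1 ^ 2 + v.2 ^ 2) * cr b q r := by
  unfold xc yc cr; ring

theorem cr_self_left (b q : ℝ × ℝ) : cr b q b = 0 := by unfold cr; ring

theorem cr_self_right (b q : ℝ × ℝ) : cr b q q = 0 := by unfold cr; ring

theorem cr_swap (p q r : ℝ × ℝ) : cr q p r = -cr p q r := by unfold cr; ring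

theorem isHalving_symm (P : Finset (ℝ × ℝ)) (p q : ℝ × ℝ) (h : IsHalving P p q) :
    IsHalving P q p := by
  obtain ⟨h0, h1, h2⟩ := h
  refine ⟨h0.symm, ?_, ?_⟩
  · have : (P.filter (fun r => 0 < cr q p r)) = (P.filter (fun r => cr p q r < 0)) :=
      Finset.filter_congr (fun r _ => by rw [cr_swap p q r]; exact neg_pos)
    rw [this]; exact h2
  · have : (P.filter (fun r => cr q p r < 0)) = (P.filter (fun r => 0 < cr p q r)) :=
      Finset.filter_congr (fun r _ => by rw [cr_swap p q r]; exact neg_lt_zero)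
    rw [this]; exact h1

theorem vnorm_pos (b v q : ℝ × ℝ) (hx : xc b v q ≠ 0) : 0 < v.1 ^ 2 + v.2 ^ 2 := by
  by_contra hc
  have h1 : v.1 ^ 2 + v.2 ^ 2 = 0 := le_antisymm (not_lt.mp hc) (by positivity)
  have h2 : v.1 = 0 := by nlinarith [sq_nonneg v.1, sq_nonneg v.2]
  have h3 : v.2 = 0 := by nlinarith [sq_nonneg v.1, sq_nonneg v.2]
  apply hx
  unfold xc
  rw [h2, h3]; ring

theorem key_sub (b v q r : ℝ × ℝ) (hq : xc b v q ≠ 0) (hr : xc b v r ≠ 0) :
    (key b v r - key b v q) * (xc b v r * xc b v q) = (v.1 ^ 2 + v.2 ^ 2) * cr b q r := by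
  rw [← xy_cr]
  unfold key
  field_simp

theorem sign_case (a xq xr D N : ℝ) (hN : 0 < N) (h : D * (xr * xq) = N * a) (hxq : xq ≠ 0)
    (hxr : xr ≠ 0) (hD : D ≠ 0) :
    ((if 0 < a then 1 else 0) - (if a < 0 then 1 else 0) : ℤ) =
      (if 0 < xq then 1 else -1) *
        ((if 0 < D then (if 0 < xr then 1 else -1) else 0) -
          (if D < 0 then (if 0 < xr then 1 else -1) else 0)) := by
  rcases lt_or_gt_of_ne hxq with hq | hq <;> rcases lt_or_gt_of_ne hxr with hr | hr <;>
    rcases lt_or_gt_of_ne hD with hd | hd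
  · have ha : a < 0 := by
      by_contra hc
      nlinarith [mul_pos_of_neg_of_neg hr hq, mul_nonneg hN.le (not_lt.mp hc),
        mul_neg_of_neg_of_pos hd (mul_pos_of_neg_of_neg hr hq)]
    simp [ha, not_lt.mpr ha.le, not_lt.mpr hq.le, not_lt.mpr hr.le, hd, not_lt.mpr hd.le]
  · have ha : 0 < a := by
      by_contra hc
      nlinarith [mul_pos_of_neg_of_neg hr hq, mul_nonpos_of_nonneg_of_nonpos hN.le (not_lt.mp hc),
        mul_pos hd (mul_pos_of_neg_of_neg hr hq)]
    simp [ha, not_lt.mpr ha.le, not_lt.mpr hq.le, not_lt.mpr hr.le, hd, not_lt.mpr hd.le]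
  · have ha : 0 < a := by
      by_contra hc
      nlinarith [mul_neg_of_pos_of_neg hr hq, mul_nonpos_of_nonneg_of_nonpos hN.le (not_lt.mp hc),
        mul_pos_of_neg_of_neg hd (mul_neg_of_pos_of_neg hr hq)]
    simp [ha, not_lt.mpr ha.le, not_lt.mpr hq.le, hr, not_lt.mpr hr.le, hd, not_lt.mpr hd.le]
  · have ha : a < 0 := by
      by_contra hc
      nlinarith [mul_neg_of_pos_of_neg hr hq, mul_nonneg hN.le (not_lt.mp hc),
        mul_neg_of_pos_of_neg hd (mul_neg_of_pos_of_neg hr hq)]
    simp [ha, not_lt.mpr ha.le, not_lt.mpr hq.le, hr, not_lt.mpr hr.le, hd, not_lt.mpr hd.le]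
  · have ha : 0 < a := by
      by_contra hc
      nlinarith [mul_neg_of_neg_of_pos hr hq, mul_nonpos_of_nonneg_of_nonpos hN.le (not_lt.mp hc),
        mul_pos_of_neg_of_neg hd (mul_neg_of_neg_of_pos hr hq)]
    simp [ha, not_lt.mpr ha.le, hq, not_lt.mpr hq.le, not_lt.mpr hr.le, hd, not_lt.mpr hd.le]
  · have ha : a < 0 := by
      by_contra hc
      nlinarith [mul_neg_of_neg_of_pos hr hq, mul_nonneg hN.le (not_lt.mp hc),
        mul_neg_of_pos_of_neg hd (mul_neg_of_neg_of_pos hr hq)]
    simp [ha, not_lt.mpr ha.le, hq, not_lt.mpr hq.le, not_lt.mpr hr.le, hd, not_lt.mpr hd.le]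
  · have ha : a < 0 := by
      by_contra hc
      nlinarith [mul_pos hr hq, mul_nonneg hN.le (not_lt.mp hc),
        mul_neg_of_neg_of_pos hd (mul_pos hr hq)]
    simp [ha, not_lt.mpr ha.le, hq, not_lt.mpr hq.le, hr, not_lt.mpr hr.le, hd, not_lt.mpr hd.le]
  · have ha : 0 < a := by
      by_contra hc
      nlinarith [mul_pos hr hq, mul_nonpos_of_nonneg_of_nonpos hN.le (not_lt.mp hc),
        mul_pos hd (mul_pos hr hq)]
    simp [ha, not_lt.mpr ha.le, hq, not_lt.mpr hq.le, hr, not_lt.mpr hr.le, hd, not_lt.mpr hd.le]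

theorem left_add_right (P : Finset (ℝ × ℝ)) (hP : GenPos P) (b q : ℝ × ℝ) (hb : b ∈ P)
    (hq : q ∈ P) (hqb : q ≠ b) :
    (P.filter (fun r => 0 < cr b q r)).card + (P.filter (fun r => cr b q r < 0)).card + 2 =
      P.card := by
  have hdisj : Disjoint (P.filter (fun r => 0 < cr b q r)) (P.filter (fun r => cr b q r < 0)) :=
    Finset.disjoint_filter.2 (fun _ _ h1 h2 => lt_asymm h1 h2)
  have hunion : (P.filter (fun r => 0 < cr b q r)) ∪ (P.filter (fun r => cr b q r < 0)) =
      (P.erase b).erase q := by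
    ext r
    simp only [Finset.mem_union, Finset.mem_filter, Finset.mem_erase]
    constructor
    · rintro (⟨hr, h⟩ | ⟨hr, h⟩)
      · refine ⟨?_, ?_, hr⟩
        · rintro rfl; rw [cr_self_right] at h; exact lt_irrefl _ h
        · rintro rfl; rw [cr_self_left] at h; exact lt_irrefl _ h
      · refine ⟨?_, ?_, hr⟩
        · rintro rfl; rw [cr_self_right] at h; exact lt_irrefl _ h
        · rintro rfl; rw [cr_self_left] at h; exact lt_irrefl _ h
    · rintro ⟨hrq, hrb, hr⟩
      have hne : cr b q r ≠ 0 := hP b hb q hq r hr (Ne.symm hqb) (Ne.symm hrb) (Ne.symm hrq)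
      rcases lt_or_gt_of_ne hne with h | h
      · exact Or.inr ⟨hr, h⟩
      · exact Or.inl ⟨hr, h⟩
  have hcard := Finset.card_union_of_disjoint hdisj
  rw [hunion] at hcard
  have hqe : q ∈ P.erase b := Finset.mem_erase.2 ⟨hqb, hq⟩
  have h1 := Finset.card_erase_of_mem hqe
  have h2 := Finset.card_erase_of_mem hb
  have h3 : 0 < (P.erase b).card := Finset.card_pos.2 ⟨q, hqe⟩
  have h4 : 0 < P.card := Finset.card_pos.2 ⟨b, hb⟩
  omega

theorem key_injOn (P : Finset (ℝ × ℝ)) (hP : GenPos P) (b v : ℝ × ℝ) (hb : b ∈ P)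
    (hgen : ∀ q ∈ P, q ≠ b → xc b v q ≠ 0) :
    Set.InjOn (key b v) (P.erase b : Finset (ℝ × ℝ)) := by
  intro q hq r hr hkey
  by_contra hne
  have hq' := Finset.mem_erase.1 (Finset.mem_coe.1 hq)
  have hr' := Finset.mem_erase.1 (Finset.mem_coe.1 hr)
  have hxq := hgen q hq'.2 hq'.1
  have hxr := hgen r hr'.2 hr'.1
  have hcr : cr b q r ≠ 0 := hP b hb q hq'.2 r hr'.2 (Ne.symm hq'.1) (Ne.symm hr'.1) hne
  have h := key_sub b v q r hxq hxr
  rw [hkey, sub_self, zero_mul] at h
  have hv := vnorm_pos b v q hxq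
  rcases mul_eq_zero.1 h.symm with h0 | h0
  · exact absurd h0 hv.ne'
  · exact hcr h0

theorem left_sub_right (P : Finset (ℝ × ℝ)) (hP : GenPos P) (b v : ℝ × ℝ) (hb : b ∈ P)
    (hgen : ∀ q ∈ P, q ≠ b → xc b v q ≠ 0) (q : ℝ × ℝ) (hq : q ∈ P) (hqb : q ≠ b) :
    ((P.filter (fun r => 0 < cr b q r)).card : ℤ) - (P.filter (fun r => cr b q r < 0)).card =
      sg b v q * (∑ r ∈ P.erase b, sg b v r - sg b v q -
        2 * psum (P.erase b) (key b v) (sg b v) q) := by
  have hqe : q ∈ P.erase b := Finset.mem_erase.2 ⟨hqb, hq⟩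
  have hxq := hgen q hq hqb
  have hv := vnorm_pos b v q hxq
  have hinj := key_injOn P hP b v hb hgen
  -- the left-minus-right count as a sum of signs over `P.erase b`
  have hL : ((P.filter (fun r => 0 < cr b q r)).card : ℤ) -
      (P.filter (fun r => cr b q r < 0)).card =
      ∑ r ∈ P.erase b, ((if 0 < cr b q r then 1 else 0) - (if cr b q r < 0 then 1 else 0) : ℤ) := by
    rw [Finset.card_filter, Finset.card_filter, Nat.cast_sum, Nat.cast_sum,
      ← Finset.sum_sub_distrib, ← Finset.insert_erase hb, Finset.sum_insert (by simp)]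
    simp [cr_self_left]
  -- termwise sign computation
  have hterm : ∀ r ∈ P.erase b,
      ((if 0 < cr b q r then 1 else 0) - (if cr b q r < 0 then 1 else 0) : ℤ) =
      sg b v q * ((if key b v q < key b v r then sg b v r else 0) -
        (if key b v r < key b v q then sg b v r else 0)) := by
    intro r hr
    have hr' := Finset.mem_erase.1 hr
    by_cases hrq : r = q
    · subst hrq
      simp [cr_self_right]
    · have hxr := hgen r hr'.2 hr'.1
      have hkne : key b v r - key b v q ≠ 0 := by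
        intro h0
        exact hrq (hinj (Finset.mem_coe.2 hr) (Finset.mem_coe.2 hqe) (sub_eq_zero.1 h0))
      have := sign_case (cr b q r) (xc b v q) (xc b v r) (key b v r - key b v q)
        (v.1 ^ 2 + v.2 ^ 2) hv (key_sub b v q r hxq hxr) hxq hxr hkne
      simp only [sub_pos, sub_neg] at this
      unfold sg
      exact this
  -- splitting the total sum
  have hsplit : ∑ r ∈ P.erase b, sg b v r =
      psum (P.erase b) (key b v) (sg b v) q + sg b v q +
        ∑ r ∈ P.erase b, (if key b v q < key b v r then sg b v r else 0) := by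
    unfold psum
    rw [Finset.sum_filter]
    have : ∀ r ∈ P.erase b, sg b v r =
        (if key b v r < key b v q then sg b v r else 0) + (if r = q then sg b v r else 0) +
          (if key b v q < key b v r then sg b v r else 0) := by
      intro r hr
      rcases lt_trichotomy (key b v r) (key b v q) with h | h | h
      · have hne : r ≠ q := fun h' => by rw [h'] at h; exact lt_irrefl _ h
        simp [h, hne, not_lt.mpr h.le]
      · have heq : r = q := hinj (Finset.mem_coe.2 hr) (Finset.mem_coe.2 hqe) h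
        subst heq
        simp
      · have hne : r ≠ q := fun h' => by rw [h'] at h; exact lt_irrefl _ h
        simp [h, hne, not_lt.mpr h.le]
    rw [Finset.sum_congr rfl this, Finset.sum_add_distrib, Finset.sum_add_distrib,
      Finset.sum_ite_eq' (P.erase b) q, if_pos hqe]
  rw [hL, Finset.sum_congr rfl hterm, ← Finset.mul_sum, Finset.sum_sub_distrib, hsplit]
  unfold psum
  rw [Finset.sum_filter]
  ring

/-- Vertex lemma (Lovasz alternation): for a line through `b` that contains no other point of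
`P`, the numbers of halving lines through `b` going to the two sides differ by at most one. -/
theorem vertex (P : Finset (ℝ × ℝ)) (hP : GenPos P) (b v : ℝ × ℝ) (hb : b ∈ P)
    (hgen : ∀ q ∈ P, q ≠ b → xc b v q ≠ 0) :
    (P.filter (fun q => IsHalving P b q ∧ 0 < xc b v q)).card ≤
      (P.filter (fun q => IsHalving P b q ∧ xc b v q < 0)).card + 1 := by
  rcases Finset.eq_empty_or_nonempty (P.filter (fun q => IsHalving P b q ∧ 0 < xc b v q)) with
    hemp | ⟨q0, hq0⟩
  · rw [hemp]; simp
  · have hinj := key_injOn P hP b v hb hgen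
    have hsg : ∀ q ∈ P.erase b, sg b v q = 1 ∨ sg b v q = -1 := by
      intro q _
      unfold sg
      split_ifs
      · exact Or.inl rfl
      · exact Or.inr rfl
    obtain ⟨hq0P, hq0H, hq0x⟩ := Finset.mem_filter.1 hq0
    have hq0b : q0 ≠ b := Ne.symm hq0H.1
    have hT0 := left_sub_right P hP b v hb hgen q0 hq0P hq0b
    have hsg0 : sg b v q0 = 1 := by unfold sg; rw [if_pos hq0x]
    rw [hsg0] at hT0
    obtain ⟨_, hh1, hh2⟩ := hq0H
    have hT : ∑ r ∈ P.erase b, sg b v r =
        2 * psum (P.erase b) (key b v) (sg b v) q0 + 1 := by omega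
    have hw := (walk_aux (key b v) (sg b v) (psum (P.erase b) (key b v) (sg b v) q0)
      (P.erase b) hinj hsg).2
    have hsub1 : (P.filter (fun q => IsHalving P b q ∧ 0 < xc b v q)) ⊆
        (P.erase b).filter (fun q => sg b v q = 1 ∧
          psum (P.erase b) (key b v) (sg b v) q = psum (P.erase b) (key b v) (sg b v) q0) := by
      intro q hq
      obtain ⟨hqP, hqH, hqx⟩ := Finset.mem_filter.1 hq
      have hqb : q ≠ b := Ne.symm hqH.1
      have hTq := left_sub_right P hP b v hb hgen q hqP hqb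
      have hsgq : sg b v q = 1 := by unfold sg; rw [if_pos hqx]
      rw [hsgq] at hTq
      obtain ⟨_, hq1, hq2⟩ := hqH
      refine Finset.mem_filter.2 ⟨Finset.mem_erase.2 ⟨hqb, hqP⟩, hsgq, ?_⟩
      omega
    have hsub2 : (P.erase b).filter (fun q => sg b v q = -1 ∧
          psum (P.erase b) (key b v) (sg b v) q =
            psum (P.erase b) (key b v) (sg b v) q0 + 1) ⊆
        (P.filter (fun q => IsHalving P b q ∧ xc b v q < 0)) := by
      intro q hq
      obtain ⟨hqe, hsgq, hpq⟩ := Finset.mem_filter.1 hq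
      obtain ⟨hqb, hqP⟩ := Finset.mem_erase.1 hqe
      have hTq := left_sub_right P hP b v hb hgen q hqP hqb
      have hsum := left_add_right P hP b q hb hqP hqb
      rw [hsgq] at hTq
      have hxq : xc b v q < 0 := by
        rcases lt_or_gt_of_ne (hgen q hqP hqb) with h | h
        · exact h
        · exfalso
          unfold sg at hsgq
          rw [if_pos h] at hsgq
          omega
      refine Finset.mem_filter.2 ⟨hqP, ⟨Ne.symm hqb, ?_, ?_⟩, hxq⟩
      · omega
      · omega
    calc (P.filter (fun q => IsHalving P b q ∧ 0 < xc b v q)).card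
        ≤ _ := Finset.card_le_card hsub1
      _ ≤ _ := hw
      _ ≤ _ := Nat.add_le_add_right (Finset.card_le_card hsub2) 1

/-- Layered vertex lemma: if all points of the same or deeper layers lie strictly on one side of
a line through `b` that contains no other point of `P`, then `b` has at most one more halving
neighbour in the same or deeper layers than in shallower layers. -/
theorem vertex_lay (P : Finset (ℝ × ℝ)) (hP : GenPos P) (lay : ℝ × ℝ → ℕ) (b v : ℝ × ℝ)
    (hb : b ∈ P) (hgen : ∀ q ∈ P, q ≠ b → xc b v q ≠ 0)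
    (hdeep : ∀ q ∈ P, q ≠ b → lay b ≤ lay q → 0 < xc b v q) :
    (P.filter (fun q => IsHalving P b q ∧ lay b ≤ lay q)).card ≤
      (P.filter (fun q => IsHalving P b q ∧ lay q < lay b)).card + 1 := by
  have h1 : (P.filter (fun q => IsHalving P b q ∧ lay b ≤ lay q)) ⊆
      (P.filter (fun q => IsHalving P b q ∧ 0 < xc b v q)) := by
    intro q hq
    obtain ⟨hqP, hqH, hql⟩ := Finset.mem_filter.1 hq
    exact Finset.mem_filter.2 ⟨hqP, hqH, hdeep q hqP (Ne.symm hqH.1) hql⟩
  have h2 : (P.filter (fun q => IsHalving P b q ∧ xc b v q < 0)) ⊆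
      (P.filter (fun q => IsHalving P b q ∧ lay q < lay b)) := by
    intro q hq
    obtain ⟨hqP, hqH, hqx⟩ := Finset.mem_filter.1 hq
    refine Finset.mem_filter.2 ⟨hqP, hqH, ?_⟩
    by_contra hc
    exact lt_asymm hqx (hdeep q hqP (Ne.symm hqH.1) (not_lt.mp hc))
  calc (P.filter (fun q => IsHalving P b q ∧ lay b ≤ lay q)).card
      ≤ _ := Finset.card_le_card h1
    _ ≤ _ := vertex P hP b v hb hgen
    _ ≤ _ := Nat.add_le_add_right (Finset.card_le_card h2) 1

end Vale.Agent.Lib.P065
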