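import Mathlib
import Vale.Agent.Lib.P065.Defs
import Vale.Agent.Lib.P065.Vertex

namespace Vale.Agent.Lib.P065

open scoped Classical
open Finset

/-- Every halving line is spanned by two ordered pairs. -/
theorem two_mul_card_halvingLines (P : Finset (ℝ × ℝ)) :
    2 * (halvingLines P).card ≤ (P.offDiag.filter (fun pq => IsHalving P pq.1 pq.2)).card := by
  unfold halvingLines
  apply Finset.mul_card_image_le_card
  intro s hs
  obtain ⟨⟨p, q⟩, hpq, rfl⟩ := Finset.mem_image.1 hs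
  obtain ⟨hmem, hH⟩ := Finset.mem_filter.1 hpq
  obtain ⟨hp, hq, hne⟩ := Finset.mem_offDiag.1 hmem
  have hsub : ({(p, q), (q, p)} : Finset ((ℝ × ℝ) × (ℝ × ℝ))) ⊆
      (P.offDiag.filter (fun pq => IsHalving P pq.1 pq.2)).filter
        (fun x => s(x.1, x.2) = s(p, q)) := by
    intro x hx
    rcases Finset.mem_insert.1 hx with rfl | hx
    · exact Finset.mem_filter.2 ⟨hpq, rfl⟩
    · rw [Finset.mem_singleton] at hx
      subst hx
      refine Finset.mem_filter.2 ⟨Finset.mem_filter.2 ⟨Finset.mem_offDiag.2 ⟨hq, hp, Ne.symm hne⟩,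
        isHalving_symm P p q hH⟩, Sym2.eq_swap⟩
  have hcard : ({(p, q), (q, p)} : Finset ((ℝ × ℝ) × (ℝ × ℝ))).card = 2 :=
    Finset.card_pair (fun h => hne (Prod.ext_iff.1 h).1)
  calc 2 = ({(p, q), (q, p)} : Finset ((ℝ × ℝ) × (ℝ × ℝ))).card := hcard.symm
    _ ≤ _ := Finset.card_le_card hsub

/-- The weighted double count (weights `2 * L + 1 - 2 * lay p`). -/
theorem count_core (P : Finset (ℝ × ℝ)) (L : ℕ) (lay : ℝ × ℝ → ℕ)
    (hlay : ∀ p ∈ P, 1 ≤ lay p ∧ lay p ≤ L)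
    (hvert : ∀ b ∈ P, (P.filter (fun q => IsHalving P b q ∧ lay b ≤ lay q)).card ≤
      (P.filter (fun q => IsHalving P b q ∧ lay q < lay b)).card + 1) :
    ((P.offDiag.filter (fun pq => IsHalving P pq.1 pq.2)).card : ℤ) ≤
      ∑ p ∈ P, (2 * (L : ℤ) + 1 - 2 * lay p) := by
  set g : ℝ × ℝ → ℝ × ℝ → ℤ := fun b q =>
    if IsHalving P b q then
      (if lay b ≤ lay q then (2 * (L : ℤ) + 1 - 2 * lay b) else -(2 * (L : ℤ) + 1 - 2 * lay b))
    else 0 with hg
  have hrow : ∀ b ∈ P, ∑ q ∈ P, g b q ≤ 2 * (L : ℤ) + 1 - 2 * lay b := by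
    intro b hb
    have h1 : ∑ q ∈ P, g b q = (2 * (L : ℤ) + 1 - 2 * lay b) *
        (((P.filter (fun q => IsHalving P b q ∧ lay b ≤ lay q)).card : ℤ) -
          (P.filter (fun q => IsHalving P b q ∧ lay q < lay b)).card) := by
      rw [Finset.card_filter, Finset.card_filter, Nat.cast_sum, Nat.cast_sum,
        ← Finset.sum_sub_distrib, Finset.mul_sum]
      refine Finset.sum_congr rfl (fun q _ => ?_)
      simp only [hg]
      by_cases hH : IsHalving P b q
      · by_cases hl : lay b ≤ lay q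
        · simp [hH, hl, not_lt.mpr hl]
        · simp [hH, hl, not_le.mp hl]
      · simp [hH]
    rw [h1]
    have hv := hvert b hb
    have hw : (0 : ℤ) ≤ 2 * (L : ℤ) + 1 - 2 * lay b := by have := (hlay b hb).2; omega
    have hd : ((P.filter (fun q => IsHalving P b q ∧ lay b ≤ lay q)).card : ℤ) -
        (P.filter (fun q => IsHalving P b q ∧ lay q < lay b)).card ≤ 1 := by omega
    nlinarith
  have hpt : ∀ b ∈ P, ∀ q ∈ P, (if IsHalving P b q then (2 : ℤ) else 0) ≤ g b q + g q b := by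
    intro b hb q hq
    simp only [hg]
    have hb' := hlay b hb
    have hq' := hlay q hq
    by_cases hH : IsHalving P b q
    · have hH' := isHalving_symm P b q hH
      rw [if_pos hH, if_pos hH, if_pos hH']
      split_ifs <;> omega
    · have hH' : ¬ IsHalving P q b := fun h => hH (isHalving_symm P q b h)
      rw [if_neg hH, if_neg hH, if_neg hH']
      simp
  have hcard : (2 : ℤ) * ((P.offDiag.filter (fun pq => IsHalving P pq.1 pq.2)).card : ℤ) =
      ∑ b ∈ P, ∑ q ∈ P, (if IsHalving P b q then (2 : ℤ) else 0) := by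
    have : P.offDiag.filter (fun pq => IsHalving P pq.1 pq.2) =
        (P ×ˢ P).filter (fun pq => IsHalving P pq.1 pq.2) := by
      ext ⟨p, q⟩
      simp only [Finset.mem_filter, Finset.mem_offDiag, Finset.mem_product]
      constructor
      · rintro ⟨⟨hp, hq, _⟩, h⟩; exact ⟨⟨hp, hq⟩, h⟩
      · rintro ⟨⟨hp, hq⟩, h⟩; exact ⟨⟨hp, hq, h.1⟩, h⟩
    rw [this, Finset.card_filter, Nat.cast_sum, Finset.sum_product, Finset.mul_sum]
    refine Finset.sum_congr rfl (fun b _ => ?_)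
    rw [Finset.mul_sum]
    refine Finset.sum_congr rfl (fun q _ => ?_)
    split_ifs <;> simp
  have hcomm : ∑ b ∈ P, ∑ q ∈ P, g q b = ∑ b ∈ P, ∑ q ∈ P, g b q :=
    Finset.sum_comm (f := fun b q => g q b)
  have hA : ∑ b ∈ P, ∑ q ∈ P, (if IsHalving P b q then (2 : ℤ) else 0) ≤
      ∑ b ∈ P, ∑ q ∈ P, (g b q + g q b) :=
    Finset.sum_le_sum (fun b hb => Finset.sum_le_sum (fun q hq => hpt b hb q hq))
  simp only [Finset.sum_add_distrib] at hA
  rw [hcomm, ← hcard] at hA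
  have hB := Finset.sum_le_sum hrow
  linarith

/-- The layered bound, with a generic line at every point. -/
theorem layered_bound_gen (P : Finset (ℝ × ℝ)) (hP : GenPos P) (L : ℕ) (lay : ℝ × ℝ → ℕ)
    (hlay : ∀ p ∈ P, 1 ≤ lay p ∧ lay p ≤ L)
    (hext : ∀ b ∈ P, ∃ v : ℝ × ℝ, (∀ q ∈ P, q ≠ b → xc b v q ≠ 0) ∧
      ∀ q ∈ P, q ≠ b → lay b ≤ lay q → 0 < xc b v q) :
    2 * (halvingLines P).card + 2 * ∑ p ∈ P, lay p ≤ (2 * L + 1) * P.card := by
  have hvert : ∀ b ∈ P, (P.filter (fun q => IsHalving P b q ∧ lay b ≤ lay q)).card ≤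
      (P.filter (fun q => IsHalving P b q ∧ lay q < lay b)).card + 1 := by
    intro b hb
    obtain ⟨v, hgen, hdeep⟩ := hext b hb
    exact vertex_lay P hP lay b v hb hgen hdeep
  have h1 := count_core P L lay hlay hvert
  have h2 := two_mul_card_halvingLines P
  have h3 : ∑ p ∈ P, (2 * (L : ℤ) + 1 - 2 * lay p) =
      (2 * (L : ℤ) + 1) * P.card - 2 * ((∑ p ∈ P, lay p : ℕ) : ℤ) := by
    rw [Finset.sum_sub_distrib, Finset.sum_const, Nat.cast_sum, nsmul_eq_mul, ← Finset.mul_sum]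
    ring
  rw [h3] at h1
  have h4 : (2 : ℤ) * ((halvingLines P).card : ℤ) + 2 * ((∑ p ∈ P, lay p : ℕ) : ℤ) ≤
      (2 * (L : ℤ) + 1) * P.card := by
    have : (2 : ℤ) * (halvingLines P).card ≤
        ((P.offDiag.filter (fun pq => IsHalving P pq.1 pq.2)).card : ℤ) := by exact_mod_cast h2
    linarith
  exact_mod_cast h4

end Vale.Agent.Lib.P065
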