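import Mathlib
import Vale.Agent.Lib.P065.Defs

namespace Vale.Agent.Lib.P065

open scoped Classical

/-- `(p, q)` is a directed `k`-edge of `P`: `p ≠ q` and exactly `k` points of `P` lie strictly to
the left of the directed line from `p` to `q`. -/
def IsKEdge (P : Finset (ℝ × ℝ)) (k : ℕ) (p q : ℝ × ℝ) : Prop :=
  p ≠ q ∧ (P.filter (fun r => 0 < cr p q r)).card = k

/-- `S` is a `k`-set of `P`: a `k`-element subset of `P` that some line strictly separates from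
the rest of `P`. -/
def IsKSet (P : Finset (ℝ × ℝ)) (k : ℕ) (S : Finset (ℝ × ℝ)) : Prop :=
  S ⊆ P ∧ S.card = k ∧ ∃ (v : ℝ × ℝ) (c : ℝ), v ≠ 0 ∧
    (∀ s ∈ S, v.1 * s.1 + v.2 * s.2 < c) ∧ (∀ t ∈ P, t ∉ S → c < v.1 * t.1 + v.2 * t.2)

/-- The set of `k`-sets of `P`. -/
noncomputable def kSets (P : Finset (ℝ × ℝ)) (k : ℕ) : Finset (Finset (ℝ × ℝ)) :=
  P.powerset.filter (fun S => IsKSet P k S)

end Vale.Agent.Lib.P065
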