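import Mathlib
import Vale.Agent.Lib.P065.Defs
import Vale.Agent.Lib.P065.Vertex

namespace Vale.Agent.Lib.P065

open scoped Classical
open Finset

/-- Perturbation: a line through `b` with a set of points strictly on one side can be rotated
slightly so that it contains no other point of `P`, keeping these points on the same side. -/
theorem perturb (P : Finset (ℝ × ℝ)) (b v : ℝ × ℝ) (D : ℝ × ℝ → Prop)
    (h : ∀ q ∈ P, q ≠ b → D q → 0 < xc b v q) :
    ∃ v' : ℝ × ℝ, (∀ q ∈ P, q ≠ b → xc b v' q ≠ 0) ∧
      (∀ q ∈ P, q ≠ b → D q → 0 < xc b v' q) := by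
  have hkey : ∀ q ∈ P, ∀ᶠ t in nhdsWithin (0 : ℝ) (Set.Ioi 0), q ≠ b →
      (xc b (v.1 + t, v.2 + t ^ 2) q ≠ 0 ∧ (D q → 0 < xc b (v.1 + t, v.2 + t ^ 2) q)) := by
    intro q hq
    by_cases hqb : q = b
    · exact Filter.Eventually.of_forall (fun t h => absurd hqb h)
    · have hexp : ∀ t : ℝ, xc b (v.1 + t, v.2 + t ^ 2) q =
          xc b v q + t * (q.1 - b.1) + t ^ 2 * (q.2 - b.2) := by
        intro t; unfold xc; ring
      have hcont : Continuous (fun t : ℝ => xc b v q + t * (q.1 - b.1) + t ^ 2 * (q.2 - b.2)) := by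
        fun_prop
      by_cases hA : xc b v q = 0
      · have hD : ¬ D q := fun hd => by
          have := h q hq hqb hd
          rw [hA] at this
          exact lt_irrefl _ this
        by_cases h1 : q.1 - b.1 = 0
        · have h2 : q.2 - b.2 ≠ 0 := by
            intro h2
            apply hqb
            exact Prod.ext (sub_eq_zero.1 h1) (sub_eq_zero.1 h2)
          filter_upwards [self_mem_nhdsWithin] with t ht _
          refine ⟨?_, fun hd => absurd hd hD⟩
          rw [hexp, hA, h1]
          have ht' : t ≠ 0 := ne_of_gt ht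
          have : (0 : ℝ) + t * 0 + t ^ 2 * (q.2 - b.2) = t ^ 2 * (q.2 - b.2) := by ring
          rw [this]
          exact mul_ne_zero (pow_ne_zero 2 ht') h2
        · have hc2 : Continuous (fun t : ℝ => (q.1 - b.1) + t * (q.2 - b.2)) := by fun_prop
          have hev : ∀ᶠ t in nhds (0 : ℝ), (q.1 - b.1) + t * (q.2 - b.2) ≠ 0 :=
            hc2.continuousAt.eventually_ne (by simpa using h1)
          filter_upwards [nhdsWithin_le_nhds hev, self_mem_nhdsWithin] with t ht1 ht2 _
          refine ⟨?_, fun hd => absurd hd hD⟩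
          rw [hexp, hA]
          have : (0 : ℝ) + t * (q.1 - b.1) + t ^ 2 * (q.2 - b.2) =
              t * ((q.1 - b.1) + t * (q.2 - b.2)) := by ring
          rw [this]
          exact mul_ne_zero (ne_of_gt ht2) ht1
      · rcases lt_or_gt_of_ne hA with hneg | hpos
        · have hev : ∀ᶠ t in nhds (0 : ℝ),
              xc b v q + t * (q.1 - b.1) + t ^ 2 * (q.2 - b.2) < 0 :=
            (isOpen_lt hcont continuous_const).mem_nhds (by simpa using hneg)
          filter_upwards [nhdsWithin_le_nhds hev] with t ht _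
          rw [hexp]
          exact ⟨ne_of_lt ht, fun hd => absurd (h q hq hqb hd) (not_lt.mpr hneg.le)⟩
        · have hev : ∀ᶠ t in nhds (0 : ℝ),
              0 < xc b v q + t * (q.1 - b.1) + t ^ 2 * (q.2 - b.2) :=
            (isOpen_lt continuous_const hcont).mem_nhds (by simpa using hpos)
          filter_upwards [nhdsWithin_le_nhds hev] with t ht _
          rw [hexp]
          exact ⟨ne_of_gt ht, fun _ => ht⟩
  have hall := (Filter.eventually_all_finset P).2 hkey
  obtain ⟨t, ht⟩ := hall.exists
  exact ⟨(v.1 + t, v.2 + t ^ 2), fun q hq hqb => (ht q hq hqb).1,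
    fun q hq hqb => (ht q hq hqb).2⟩

end Vale.Agent.Lib.P065
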