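import Mathlib
import Vale.Agent.Lib.P065.Defs
import Vale.Agent.Lib.P065.KDefs
import Vale.Agent.Lib.P065.Vertex
import Vale.Agent.Lib.P065.Perturb

namespace Vale.Agent.Lib.P065

open scoped Classical
open Finset

/-- General alternation lemma at a vertex `b`: for a line through `b` containing no other point
of `P`, the points `q` on the positive side whose line `b q` has left-minus-right count `m` are
at most one more than the points on the negative side with left-minus-right count `-m`. -/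
theorem vertex_diff (P : Finset (ℝ × ℝ)) (hP : GenPos P) (b v : ℝ × ℝ) (hb : b ∈ P)
    (hgen : ∀ q ∈ P, q ≠ b → xc b v q ≠ 0) (m : ℤ) :
    (P.filter (fun q => q ≠ b ∧ 0 < xc b v q ∧
      ((P.filter (fun r => 0 < cr b q r)).card : ℤ) -
        (P.filter (fun r => cr b q r < 0)).card = m)).card ≤
    (P.filter (fun q => q ≠ b ∧ xc b v q < 0 ∧
      ((P.filter (fun r => 0 < cr b q r)).card : ℤ) -
        (P.filter (fun r => cr b q r < 0)).card = -m)).card + 1 := by
  rcases Finset.eq_empty_or_nonempty (P.filter (fun q => q ≠ b ∧ 0 < xc b v q ∧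
      ((P.filter (fun r => 0 < cr b q r)).card : ℤ) -
        (P.filter (fun r => cr b q r < 0)).card = m)) with hemp | ⟨q0, hq0⟩
  · rw [hemp]; simp
  · have hinj := key_injOn P hP b v hb hgen
    have hsg : ∀ q ∈ P.erase b, sg b v q = 1 ∨ sg b v q = -1 := by
      intro q _
      unfold sg
      split_ifs
      · exact Or.inl rfl
      · exact Or.inr rfl
    obtain ⟨hq0P, hq0b, hq0x, hq0m⟩ := Finset.mem_filter.1 hq0
    have hT0 := left_sub_right P hP b v hb hgen q0 hq0P hq0b
    have hsg0 : sg b v q0 = 1 := by unfold sg; rw [if_pos hq0x]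
    rw [hsg0, hq0m] at hT0
    have hT : ∑ r ∈ P.erase b, sg b v r =
        2 * psum (P.erase b) (key b v) (sg b v) q0 + 1 + m := by omega
    have hw := (walk_aux (key b v) (sg b v) (psum (P.erase b) (key b v) (sg b v) q0)
      (P.erase b) hinj hsg).2
    have hsub1 : (P.filter (fun q => q ≠ b ∧ 0 < xc b v q ∧
        ((P.filter (fun r => 0 < cr b q r)).card : ℤ) -
          (P.filter (fun r => cr b q r < 0)).card = m)) ⊆
        (P.erase b).filter (fun q => sg b v q = 1 ∧
          psum (P.erase b) (key b v) (sg b v) q = psum (P.erase b) (key b v) (sg b v) q0) := by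
      intro q hq
      obtain ⟨hqP, hqb, hqx, hqm⟩ := Finset.mem_filter.1 hq
      have hTq := left_sub_right P hP b v hb hgen q hqP hqb
      have hsgq : sg b v q = 1 := by unfold sg; rw [if_pos hqx]
      rw [hsgq, hqm] at hTq
      refine Finset.mem_filter.2 ⟨Finset.mem_erase.2 ⟨hqb, hqP⟩, hsgq, ?_⟩
      omega
    have hsub2 : (P.erase b).filter (fun q => sg b v q = -1 ∧
          psum (P.erase b) (key b v) (sg b v) q =
            psum (P.erase b) (key b v) (sg b v) q0 + 1) ⊆
        (P.filter (fun q => q ≠ b ∧ xc b v q < 0 ∧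
          ((P.filter (fun r => 0 < cr b q r)).card : ℤ) -
            (P.filter (fun r => cr b q r < 0)).card = -m)) := by
      intro q hq
      obtain ⟨hqe, hsgq, hpq⟩ := Finset.mem_filter.1 hq
      obtain ⟨hqb, hqP⟩ := Finset.mem_erase.1 hqe
      have hTq := left_sub_right P hP b v hb hgen q hqP hqb
      rw [hsgq] at hTq
      have hxq : xc b v q < 0 := by
        rcases lt_or_gt_of_ne (hgen q hqP hqb) with h | h
        · exact h
        · exfalso
          unfold sg at hsgq
          rw [if_pos h] at hsgq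
          omega
      refine Finset.mem_filter.2 ⟨hqP, hqb, hxq, ?_⟩
      omega
    calc _ ≤ _ := Finset.card_le_card hsub1
      _ ≤ _ := hw
      _ ≤ _ := Nat.add_le_add_right (Finset.card_le_card hsub2) 1

theorem kedge_out_iff (P : Finset (ℝ × ℝ)) (hP : GenPos P) (k : ℕ) (b q : ℝ × ℝ) (hb : b ∈ P)
    (hq : q ∈ P) (hqb : q ≠ b) :
    IsKEdge P k b q ↔ ((P.filter (fun r => 0 < cr b q r)).card : ℤ) -
        (P.filter (fun r => cr b q r < 0)).card = 2 * (k : ℤ) + 2 - P.card := by
  have hsum := left_add_right P hP b q hb hq hqb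
  unfold IsKEdge
  constructor
  · rintro ⟨_, h⟩; omega
  · intro h; exact ⟨Ne.symm hqb, by omega⟩

theorem kedge_in_iff (P : Finset (ℝ × ℝ)) (hP : GenPos P) (k : ℕ) (b q : ℝ × ℝ) (hb : b ∈ P)
    (hq : q ∈ P) (hqb : q ≠ b) :
    IsKEdge P k q b ↔ ((P.filter (fun r => 0 < cr b q r)).card : ℤ) -
        (P.filter (fun r => cr b q r < 0)).card = (P.card : ℤ) - 2 - 2 * (k : ℤ) := by
  have hsum := left_add_right P hP b q hb hq hqb
  have hsw : (P.filter (fun r => 0 < cr q b r)) = (P.filter (fun r => cr b q r < 0)) :=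
    Finset.filter_congr (fun r _ => by rw [cr_swap b q r]; exact neg_pos)
  unfold IsKEdge
  rw [hsw]
  constructor
  · rintro ⟨_, h⟩; omega
  · intro h; exact ⟨hqb, by omega⟩

/-- Layered vertex lemma for `k`-edges, outgoing deep versus incoming shallow. -/
theorem kvertex_out (P : Finset (ℝ × ℝ)) (hP : GenPos P) (k : ℕ) (lay : ℝ × ℝ → ℕ)
    (b v : ℝ × ℝ) (hb : b ∈ P) (hgen : ∀ q ∈ P, q ≠ b → xc b v q ≠ 0)
    (hdeep : ∀ q ∈ P, q ≠ b → lay b ≤ lay q → 0 < xc b v q) :
    (P.filter (fun q => IsKEdge P k b q ∧ lay b ≤ lay q)).card ≤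
      (P.filter (fun q => IsKEdge P k q b ∧ lay q < lay b)).card + 1 := by
  have h1 : (P.filter (fun q => IsKEdge P k b q ∧ lay b ≤ lay q)) ⊆
      (P.filter (fun q => q ≠ b ∧ 0 < xc b v q ∧
        ((P.filter (fun r => 0 < cr b q r)).card : ℤ) -
          (P.filter (fun r => cr b q r < 0)).card = 2 * (k : ℤ) + 2 - P.card)) := by
    intro q hq
    obtain ⟨hqP, hqH, hql⟩ := Finset.mem_filter.1 hq
    have hqb : q ≠ b := Ne.symm hqH.1
    exact Finset.mem_filter.2 ⟨hqP, hqb, hdeep q hqP hqb hql,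
      (kedge_out_iff P hP k b q hb hqP hqb).1 hqH⟩
  have h2 : (P.filter (fun q => q ≠ b ∧ xc b v q < 0 ∧
        ((P.filter (fun r => 0 < cr b q r)).card : ℤ) -
          (P.filter (fun r => cr b q r < 0)).card = -(2 * (k : ℤ) + 2 - P.card))) ⊆
      (P.filter (fun q => IsKEdge P k q b ∧ lay q < lay b)) := by
    intro q hq
    obtain ⟨hqP, hqb, hqx, hqm⟩ := Finset.mem_filter.1 hq
    refine Finset.mem_filter.2 ⟨hqP, (kedge_in_iff P hP k b q hb hqP hqb).2 (by omega), ?_⟩
    by_contra hc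
    exact lt_asymm hqx (hdeep q hqP hqb (not_lt.mp hc))
  calc _ ≤ _ := Finset.card_le_card h1
    _ ≤ _ := vertex_diff P hP b v hb hgen _
    _ ≤ _ := Nat.add_le_add_right (Finset.card_le_card h2) 1

/-- Layered vertex lemma for `k`-edges, incoming deep versus outgoing shallow. -/
theorem kvertex_in (P : Finset (ℝ × ℝ)) (hP : GenPos P) (k : ℕ) (lay : ℝ × ℝ → ℕ)
    (b v : ℝ × ℝ) (hb : b ∈ P) (hgen : ∀ q ∈ P, q ≠ b → xc b v q ≠ 0)
    (hdeep : ∀ q ∈ P, q ≠ b → lay b ≤ lay q → 0 < xc b v q) :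
    (P.filter (fun q => IsKEdge P k q b ∧ lay b ≤ lay q)).card ≤
      (P.filter (fun q => IsKEdge P k b q ∧ lay q < lay b)).card + 1 := by
  have h1 : (P.filter (fun q => IsKEdge P k q b ∧ lay b ≤ lay q)) ⊆
      (P.filter (fun q => q ≠ b ∧ 0 < xc b v q ∧
        ((P.filter (fun r => 0 < cr b q r)).card : ℤ) -
          (P.filter (fun r => cr b q r < 0)).card = (P.card : ℤ) - 2 - 2 * (k : ℤ))) := by
    intro q hq
    obtain ⟨hqP, hqH, hql⟩ := Finset.mem_filter.1 hq
    have hqb : q ≠ b := hqH.1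
    exact Finset.mem_filter.2 ⟨hqP, hqb, hdeep q hqP hqb hql,
      (kedge_in_iff P hP k b q hb hqP hqb).1 hqH⟩
  have h2 : (P.filter (fun q => q ≠ b ∧ xc b v q < 0 ∧
        ((P.filter (fun r => 0 < cr b q r)).card : ℤ) -
          (P.filter (fun r => cr b q r < 0)).card = -((P.card : ℤ) - 2 - 2 * (k : ℤ)))) ⊆
      (P.filter (fun q => IsKEdge P k b q ∧ lay q < lay b)) := by
    intro q hq
    obtain ⟨hqP, hqb, hqx, hqm⟩ := Finset.mem_filter.1 hq
    refine Finset.mem_filter.2 ⟨hqP, (kedge_out_iff P hP k b q hb hqP hqb).2 (by omega), ?_⟩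
    by_contra hc
    exact lt_asymm hqx (hdeep q hqP hqb (not_lt.mp hc))
  calc _ ≤ _ := Finset.card_le_card h1
    _ ≤ _ := vertex_diff P hP b v hb hgen _
    _ ≤ _ := Nat.add_le_add_right (Finset.card_le_card h2) 1

end Vale.Agent.Lib.P065
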