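import Mathlib
import Vale.Agent.Lib.P065.Defs
import Vale.Agent.Lib.P065.KDefs
import Vale.Agent.Lib.P065.Vertex
import Vale.Agent.Lib.P065.Perturb
import Vale.Agent.Lib.P065.KEdge

namespace Vale.Agent.Lib.P065

open scoped Classical
open Finset

/-- The weighted double count for directed `k`-edges (weights `2 * L + 1 - 2 * lay p`). -/
theorem kcount_core (P : Finset (ℝ × ℝ)) (k L : ℕ) (lay : ℝ × ℝ → ℕ)
    (hlay : ∀ p ∈ P, 1 ≤ lay p ∧ lay p ≤ L)
    (hout : ∀ b ∈ P, (P.filter (fun q => IsKEdge P k b q ∧ lay b ≤ lay q)).card ≤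
      (P.filter (fun q => IsKEdge P k q b ∧ lay q < lay b)).card + 1)
    (hin : ∀ b ∈ P, (P.filter (fun q => IsKEdge P k q b ∧ lay b ≤ lay q)).card ≤
      (P.filter (fun q => IsKEdge P k b q ∧ lay q < lay b)).card + 1) :
    ((P.offDiag.filter (fun pq => IsKEdge P k pq.1 pq.2)).card : ℤ) ≤
      ∑ p ∈ P, (2 * (L : ℤ) + 1 - 2 * lay p) := by
  set χ : ℝ × ℝ → ℝ × ℝ → ℤ := fun b q => if IsKEdge P k b q then 1 else 0 with hχ
  set g : ℝ × ℝ → ℝ × ℝ → ℤ := fun b q =>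
    (χ b q + χ q b) *
      (if lay b ≤ lay q then (2 * (L : ℤ) + 1 - 2 * lay b)
        else -(2 * (L : ℤ) + 1 - 2 * lay b)) with hg
  have hrow : ∀ b ∈ P, ∑ q ∈ P, g b q ≤ 2 * (2 * (L : ℤ) + 1 - 2 * lay b) := by
    intro b hb
    have h1 : ∑ q ∈ P, g b q = (2 * (L : ℤ) + 1 - 2 * lay b) *
        (((P.filter (fun q => IsKEdge P k b q ∧ lay b ≤ lay q)).card : ℤ) +
          (P.filter (fun q => IsKEdge P k q b ∧ lay b ≤ lay q)).card -
          (P.filter (fun q => IsKEdge P k q b ∧ lay q < lay b)).card -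
          (P.filter (fun q => IsKEdge P k b q ∧ lay q < lay b)).card) := by
      rw [Finset.card_filter, Finset.card_filter, Finset.card_filter, Finset.card_filter,
        Nat.cast_sum, Nat.cast_sum, Nat.cast_sum, Nat.cast_sum,
        ← Finset.sum_add_distrib, ← Finset.sum_sub_distrib, ← Finset.sum_sub_distrib,
        Finset.mul_sum]
      refine Finset.sum_congr rfl (fun q _ => ?_)
      simp only [hg, hχ]
      by_cases hH : IsKEdge P k b q <;> by_cases hH' : IsKEdge P k q b <;>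
        by_cases hl : lay b ≤ lay q
      all_goals first
        | (simp [hH, hH', hl, not_lt.mpr hl]; try ring)
        | (simp [hH, hH', hl, not_le.mp hl]; try ring)
    rw [h1]
    have ho := hout b hb
    have hi := hin b hb
    have hw : (0 : ℤ) ≤ 2 * (L : ℤ) + 1 - 2 * lay b := by have := (hlay b hb).2; omega
    have hd : ((P.filter (fun q => IsKEdge P k b q ∧ lay b ≤ lay q)).card : ℤ) +
          (P.filter (fun q => IsKEdge P k q b ∧ lay b ≤ lay q)).card -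
          (P.filter (fun q => IsKEdge P k q b ∧ lay q < lay b)).card -
          (P.filter (fun q => IsKEdge P k b q ∧ lay q < lay b)).card ≤ 2 := by omega
    nlinarith
  have hpt : ∀ b ∈ P, ∀ q ∈ P, 2 * (χ b q + χ q b) ≤ g b q + g q b := by
    intro b hb q hq
    simp only [hg]
    have hb' := hlay b hb
    have hq' := hlay q hq
    have h0 : 0 ≤ χ b q + χ q b := by
      simp only [hχ]
      split_ifs <;> norm_num
    have hrw : χ q b + χ b q = χ b q + χ q b := add_comm _ _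
    rw [hrw, ← mul_add]
    have h1 : (2 : ℤ) ≤ (if lay b ≤ lay q then (2 * (L : ℤ) + 1 - 2 * lay b)
          else -(2 * (L : ℤ) + 1 - 2 * lay b)) +
        (if lay q ≤ lay b then (2 * (L : ℤ) + 1 - 2 * lay q)
          else -(2 * (L : ℤ) + 1 - 2 * lay q)) := by
      split_ifs <;> omega
    nlinarith
  have hcard : ((P.offDiag.filter (fun pq => IsKEdge P k pq.1 pq.2)).card : ℤ) =
      ∑ b ∈ P, ∑ q ∈ P, χ b q := by
    have : P.offDiag.filter (fun pq => IsKEdge P k pq.1 pq.2) =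
        (P ×ˢ P).filter (fun pq => IsKEdge P k pq.1 pq.2) := by
      ext ⟨p, q⟩
      simp only [Finset.mem_filter, Finset.mem_offDiag, Finset.mem_product]
      constructor
      · rintro ⟨⟨hp, hq, _⟩, h⟩; exact ⟨⟨hp, hq⟩, h⟩
      · rintro ⟨⟨hp, hq⟩, h⟩; exact ⟨⟨hp, hq, h.1⟩, h⟩
    rw [this, Finset.card_filter, Nat.cast_sum, Finset.sum_product]
    simp [hχ]
  have hcomm : ∑ b ∈ P, ∑ q ∈ P, χ q b = ∑ b ∈ P, ∑ q ∈ P, χ b q :=
    Finset.sum_comm (f := fun b q => χ q b)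
  have hcommg : ∑ b ∈ P, ∑ q ∈ P, g q b = ∑ b ∈ P, ∑ q ∈ P, g b q :=
    Finset.sum_comm (f := fun b q => g q b)
  have hA : ∑ b ∈ P, ∑ q ∈ P, 2 * (χ b q + χ q b) ≤ ∑ b ∈ P, ∑ q ∈ P, (g b q + g q b) :=
    Finset.sum_le_sum (fun b hb => Finset.sum_le_sum (fun q hq => hpt b hb q hq))
  simp only [← Finset.mul_sum, Finset.sum_add_distrib] at hA
  rw [hcomm, hcommg] at hA
  have hB := Finset.sum_le_sum hrow
  rw [← Finset.mul_sum] at hB
  rw [hcard]
  linarith

/-- The layered bound for directed `k`-edges. -/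
theorem layered_kedge_bound (P : Finset (ℝ × ℝ)) (hP : GenPos P) (k L : ℕ) (lay : ℝ × ℝ → ℕ)
    (hlay : ∀ p ∈ P, 1 ≤ lay p ∧ lay p ≤ L)
    (hext : ∀ b ∈ P, ∃ v : ℝ × ℝ, ∀ q ∈ P, q ≠ b → lay b ≤ lay q →
      0 < v.1 * (q.1 - b.1) + v.2 * (q.2 - b.2)) :
    (P.offDiag.filter (fun pq => IsKEdge P k pq.1 pq.2)).card + 2 * ∑ p ∈ P, lay p ≤
      (2 * L + 1) * P.card := by
  have hgen : ∀ b ∈ P, ∃ v : ℝ × ℝ, (∀ q ∈ P, q ≠ b → xc b v q ≠ 0) ∧
      ∀ q ∈ P, q ≠ b → lay b ≤ lay q → 0 < xc b v q := by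
    intro b hb
    obtain ⟨v, hv⟩ := hext b hb
    exact perturb P b v (fun q => lay b ≤ lay q) hv
  have hout : ∀ b ∈ P, (P.filter (fun q => IsKEdge P k b q ∧ lay b ≤ lay q)).card ≤
      (P.filter (fun q => IsKEdge P k q b ∧ lay q < lay b)).card + 1 := by
    intro b hb
    obtain ⟨v, hg, hdeep⟩ := hgen b hb
    exact kvertex_out P hP k lay b v hb hg hdeep
  have hin : ∀ b ∈ P, (P.filter (fun q => IsKEdge P k q b ∧ lay b ≤ lay q)).card ≤
      (P.filter (fun q => IsKEdge P k b q ∧ lay q < lay b)).card + 1 := by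
    intro b hb
    obtain ⟨v, hg, hdeep⟩ := hgen b hb
    exact kvertex_in P hP k lay b v hb hg hdeep
  have h1 := kcount_core P k L lay hlay hout hin
  have h3 : ∑ p ∈ P, (2 * (L : ℤ) + 1 - 2 * lay p) =
      (2 * (L : ℤ) + 1) * P.card - 2 * ((∑ p ∈ P, lay p : ℕ) : ℤ) := by
    rw [Finset.sum_sub_distrib, Finset.sum_const, Nat.cast_sum, nsmul_eq_mul, ← Finset.mul_sum]
    ring
  rw [h3] at h1
  have h4 : ((P.offDiag.filter (fun pq => IsKEdge P k pq.1 pq.2)).card : ℤ) +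
      2 * ((∑ p ∈ P, lay p : ℕ) : ℤ) ≤ (2 * (L : ℤ) + 1) * P.card := by
    linarith
  exact_mod_cast h4

end Vale.Agent.Lib.P065
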