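import Mathlib
import Vale.Agent.Lib.P065.Defs
import Vale.Agent.Lib.P065.KDefs

/-!
The classical injection from `k`-sets to directed `(k - 1)`-edges (P065, pool job of helper17).

For a `k`-set `S` with separating line `(v, c)`, take the pair `(p, q)` with `p ∈ S`,
`q ∈ P \ S` of maximal slope in the frame of `v`.  Then the points of `P` strictly to the
left of the directed line from `p` to `q` are exactly `S` without `p`, so `(p, q)` is a
directed `(k - 1)`-edge and `S` is recovered from it.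
-/

namespace Vale.Agent.Lib.P065

open scoped Classical

private lemma kinj_norm_pos (v : ℝ × ℝ) (hv : v ≠ 0) : 0 < v.1 ^ 2 + v.2 ^ 2 := by
  by_contra h
  have h1 : v.1 = 0 := by nlinarith [sq_nonneg v.1, sq_nonneg v.2]
  have h2 : v.2 = 0 := by nlinarith [sq_nonneg v.1, sq_nonneg v.2]
  exact hv (Prod.ext h1 h2)

private lemma kinj_cr_left (p q : ℝ × ℝ) : cr p q p = 0 := by unfold cr; ring

private lemma kinj_cr_right (p q : ℝ × ℝ) : cr p q q = 0 := by unfold cr; ring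

private lemma kinj_edge (P : Finset (ℝ × ℝ)) (hP : GenPos P) (S : Finset (ℝ × ℝ))
    (hSP : S ⊆ P) (hS : S.Nonempty) (hT : (P \ S).Nonempty) (v : ℝ × ℝ) (c : ℝ) (hv : v ≠ 0)
    (h1 : ∀ s ∈ S, v.1 * s.1 + v.2 * s.2 < c)
    (h2 : ∀ t ∈ P, t ∉ S → c < v.1 * t.1 + v.2 * t.2) :
    ∃ p ∈ S, ∃ q ∈ P, q ∉ S ∧ P.filter (fun r => 0 < cr p q r) = S.erase p := by
  have hN := kinj_norm_pos v hv
  obtain ⟨pq, hpq, hmax⟩ := Finset.exists_max_image (S ×ˢ (P \ S))
    (fun pq : (ℝ × ℝ) × (ℝ × ℝ) =>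
      ((-v.2 * pq.2.1 + v.1 * pq.2.2) - (-v.2 * pq.1.1 + v.1 * pq.1.2)) /
        ((v.1 * pq.2.1 + v.2 * pq.2.2) - (v.1 * pq.1.1 + v.2 * pq.1.2)))
    (hS.product hT)
  obtain ⟨p, q⟩ := pq
  obtain ⟨hpS, hqT⟩ := Finset.mem_product.1 hpq
  obtain ⟨hqP, hqS⟩ := Finset.mem_sdiff.1 hqT
  simp only at hpS hqS hqP hmax
  have hpP := hSP hpS
  have hpq_ne : p ≠ q := fun h => hqS (h ▸ hpS)
  have hxpq : 0 < (v.1 * q.1 + v.2 * q.2) - (v.1 * p.1 + v.2 * p.2) := by
    have e1 := h1 p hpS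
    have e2 := h2 q hqP hqS
    linarith
  -- points of S other than p are strictly left
  have hA : ∀ s ∈ S, s ≠ p → 0 < cr p q s := by
    intro s hs hsp
    have hxsq : 0 < (v.1 * q.1 + v.2 * q.2) - (v.1 * s.1 + v.2 * s.2) := by
      have e1 := h1 s hs
      have e2 := h2 q hqP hqS
      linarith
    have hle := hmax (s, q) (Finset.mem_product.2 ⟨hs, hqT⟩)
    simp only at hle
    rw [div_le_div_iff₀ hxsq hxpq] at hle
    have hne : cr p q s ≠ 0 :=
      hP p hpP q hqP s (hSP hs) hpq_ne (fun h => hsp h.symm) (fun h => hqS (h ▸ hs))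
    have e : (v.1 ^ 2 + v.2 ^ 2) * cr p q s
        = ((-v.2 * q.1 + v.1 * q.2) - (-v.2 * p.1 + v.1 * p.2)) *
            ((v.1 * q.1 + v.2 * q.2) - (v.1 * s.1 + v.2 * s.2))
          - ((-v.2 * q.1 + v.1 * q.2) - (-v.2 * s.1 + v.1 * s.2)) *
            ((v.1 * q.1 + v.2 * q.2) - (v.1 * p.1 + v.2 * p.2)) := by
      unfold cr; ring
    have hge : 0 ≤ (v.1 ^ 2 + v.2 ^ 2) * cr p q s := by
      rw [e]; exact sub_nonneg.2 hle
    have h0 : 0 ≤ cr p q s := by
      by_contra hneg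
      have hneg' := not_le.1 hneg
      nlinarith
    exact lt_of_le_of_ne h0 (Ne.symm hne)
  -- points outside S other than q are strictly right
  have hB : ∀ t ∈ P, t ∉ S → t ≠ q → cr p q t < 0 := by
    intro t ht htS htq
    have hxpt : 0 < (v.1 * t.1 + v.2 * t.2) - (v.1 * p.1 + v.2 * p.2) := by
      have e1 := h1 p hpS
      have e2 := h2 t ht htS
      linarith
    have hle := hmax (p, t) (Finset.mem_product.2 ⟨hpS, Finset.mem_sdiff.2 ⟨ht, htS⟩⟩)
    simp only at hle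
    rw [div_le_div_iff₀ hxpt hxpq] at hle
    have hne : cr p q t ≠ 0 :=
      hP p hpP q hqP t ht hpq_ne (fun h => htS (h ▸ hpS)) (fun h => htq h.symm)
    have e : (v.1 ^ 2 + v.2 ^ 2) * cr p q t
        = ((-v.2 * t.1 + v.1 * t.2) - (-v.2 * p.1 + v.1 * p.2)) *
            ((v.1 * q.1 + v.2 * q.2) - (v.1 * p.1 + v.2 * p.2))
          - ((-v.2 * q.1 + v.1 * q.2) - (-v.2 * p.1 + v.1 * p.2)) *
            ((v.1 * t.1 + v.2 * t.2) - (v.1 * p.1 + v.2 * p.2)) := by
      unfold cr; ring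
    have hle0 : (v.1 ^ 2 + v.2 ^ 2) * cr p q t ≤ 0 := by
      rw [e]; exact sub_nonpos.2 hle
    have h0 : cr p q t ≤ 0 := by
      by_contra hpos
      have hpos' := not_le.1 hpos
      nlinarith
    exact lt_of_le_of_ne h0 hne
  refine ⟨p, hpS, q, hqP, hqS, ?_⟩
  ext r
  simp only [Finset.mem_filter, Finset.mem_erase]
  constructor
  · rintro ⟨hrP, hpos⟩
    have hrp : r ≠ p := by
      intro h
      rw [h, kinj_cr_left] at hpos
      exact lt_irrefl _ hpos
    refine ⟨hrp, ?_⟩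
    by_contra hrS
    by_cases hrq : r = q
    · rw [hrq, kinj_cr_right] at hpos
      exact lt_irrefl _ hpos
    · exact lt_asymm hpos (hB r hrP hrS hrq)
  · rintro ⟨hrp, hrS⟩
    exact ⟨hSP hrS, hA r hrS hrp⟩

/-- The number of `k`-sets is at most the number of directed `(k - 1)`-edges. -/
theorem card_kSets_le (P : Finset (ℝ × ℝ)) (hP : GenPos P) (k : ℕ) (hk1 : 1 ≤ k)
    (hk2 : k < P.card) :
    (kSets P k).card ≤ (P.offDiag.filter (fun pq => IsKEdge P (k - 1) pq.1 pq.2)).card := by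
  have hsub : kSets P k ⊆ (P.offDiag.filter (fun pq => IsKEdge P (k - 1) pq.1 pq.2)).image
      (fun pq => insert pq.1 (P.filter (fun r => 0 < cr pq.1 pq.2 r))) := by
    intro S hS
    obtain ⟨_, hSk⟩ := Finset.mem_filter.1 hS
    obtain ⟨hSP, hcard, v, c, hv, h1, h2⟩ := hSk
    have hSne : S.Nonempty := by
      rw [← Finset.card_pos]; omega
    have hTne : (P \ S).Nonempty := by
      rw [← Finset.card_pos, Finset.card_sdiff_of_subset hSP]; omega
    obtain ⟨p, hpS, q, hqP, hqS, hfil⟩ := kinj_edge P hP S hSP hSne hTne v c hv h1 h2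
    have hne : p ≠ q := fun h => hqS (h ▸ hpS)
    refine Finset.mem_image.2 ⟨(p, q), ?_, ?_⟩
    · refine Finset.mem_filter.2 ⟨Finset.mem_offDiag.2 ⟨hSP hpS, hqP, hne⟩, hne, ?_⟩
      simp only
      rw [hfil, Finset.card_erase_of_mem hpS, hcard]
    · simp only
      rw [hfil, Finset.insert_erase hpS]
  exact (Finset.card_le_card hsub).trans Finset.card_image_le

end Vale.Agent.Lib.P065
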