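import Mathlib
import Vale.Agent.Lib.P065.Defs

namespace Vale.Agent.Lib.P065

open scoped Classical

/-- The vertices of the convex hull of `S`: the points `b` of `S` for which some line through `b`
has all other points of `S` strictly on one side. -/
noncomputable def hullVertices (S : Finset (ℝ × ℝ)) : Finset (ℝ × ℝ) :=
  S.filter (fun b => ∃ v : ℝ × ℝ, ∀ q ∈ S, q ≠ b →
    0 < v.1 * (q.1 - b.1) + v.2 * (q.2 - b.2))

/-- One round of peeling: remove the vertices of the convex hull. -/
noncomputable def peel (S : Finset (ℝ × ℝ)) : Finset (ℝ × ℝ) := S \ hullVertices S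

/-- The number of convex layers of `P`: the least number of rounds of peeling that exhausts
`P`. -/
noncomputable def numLayers (P : Finset (ℝ × ℝ)) : ℕ := sInf {i : ℕ | peel^[i] P = ∅}

end Vale.Agent.Lib.P065
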